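import Mathlib

/-!
# P281, surfaces (helper603): a holomorphic function on a smooth curve of `ℂ²`

Critical points of the restriction to the curve near a given point have the same value; two
transversal curves meet in an isolated point.
-/

open Filter Set Metric
open scoped Topology ContDiff

noncomputable section

namespace Vale.Agent.P281.H603.Surf

variable {E : Type*} [NormedAddCommGroup E] [NormedSpace ℂ E] [CompleteSpace E]

/-- two transversal curves meet in an isolated point -/
theorem cross {F : E → ℂ × ℂ} {p : E} {A : E ≃L[ℂ] ℂ × ℂ} (hF : ContDiffAt ℂ ω F p)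
    (hA : HasFDerivAt F (A : E →L[ℂ] ℂ × ℂ) p) :
    ∀ᶠ x in 𝓝 p, F x = F p → x = p := by
  set Φ := hF.toOpenPartialHomeomorph F hA (by simp) with hΦ
  have h1 : p ∈ Φ.source := hF.mem_toOpenPartialHomeomorph_source hA (by simp)
  filter_upwards [Φ.open_source.mem_nhds h1] with x hx he
  exact Φ.injOn hx h1 he

/-- **Critical points on a smooth curve.** -/
theorem curve {g h : E → ℂ} {l : E →L[ℂ] ℂ} {p : E} {A : E ≃L[ℂ] ℂ × ℂ} (hg : AnalyticAt ℂ g p)
    (hh : AnalyticAt ℂ h p) (hA : (A : E →L[ℂ] ℂ × ℂ) = (fderiv ℂ g p).prod l) :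
    ∀ᶠ x in 𝓝 p, g x = g p → (∃ ξ : E, ξ ≠ 0 ∧ fderiv ℂ g x ξ = 0 ∧ fderiv ℂ h x ξ = 0) →
      h x = h p := by
  set F : E → ℂ × ℂ := fun x => (g x, l x) with hFdef
  have hFa : AnalyticAt ℂ F p := hg.prod (l.analyticAt p)
  have hF : ContDiffAt ℂ ω F p := hFa.contDiffAt
  have hFd : ∀ x, DifferentiableAt ℂ g x → HasFDerivAt F ((fderiv ℂ g x).prod l) x := fun x hx =>
    hx.hasFDerivAt.prodMk l.hasFDerivAt
  have hFp : HasFDerivAt F (A : E →L[ℂ] ℂ × ℂ) p := by rw [hA]; exact hFd p hg.differentiableAt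
  set Φ := hF.toOpenPartialHomeomorph F hFp (by simp) with hΦ
  have hp : p ∈ Φ.source := hF.mem_toOpenPartialHomeomorph_source hFp (by simp)
  have hΦF : ∀ x, Φ x = F x := fun x => rfl
  have hFp' : F p ∈ Φ.target := Φ.map_source hp
  have hsymm : ContDiffAt ℂ ω Φ.symm (F p) := by
    refine Φ.contDiffAt_symm (f₀' := A) hFp' ?_ ?_
    · rw [show Φ.symm (F p) = p from Φ.left_inv hp]
      exact hFp
    · rw [show Φ.symm (F p) = p from Φ.left_inv hp]
      exact hF
  set γ : ℂ → E := fun s => Φ.symm (g p, l p + s) with hγ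
  have hγ0 : γ 0 = p := by
    rw [hγ]
    show Φ.symm (g p, l p + 0) = p
    rw [add_zero]
    exact Φ.left_inv hp
  have hlin : AnalyticAt ℂ (fun s : ℂ => (g p, l p + s)) 0 := by fun_prop
  have hγa : AnalyticAt ℂ γ 0 := by
    refine AnalyticAt.comp_of_eq (f := fun s : ℂ => (g p, l p + s)) hsymm.analyticAt hlin ?_
    show (g p, l p + 0) = F p
    rw [add_zero]
  have hha : AnalyticAt ℂ (fun s => h (γ s)) 0 := AnalyticAt.comp_of_eq hh hγa hγ0
  -- near `0`, `F ∘ γ` is the line
  have e1 : ∀ᶠ s in 𝓝 (0 : ℂ), F (γ s) = (g p, l p + s) := by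
    have h1 : ∀ᶠ s in 𝓝 (0 : ℂ), (g p, l p + s) ∈ Φ.target := by
      refine hlin.continuousAt.eventually (Φ.open_target.mem_nhds ?_)
      show (g p, l p + 0) ∈ Φ.target
      rw [add_zero]
      exact hFp'
    filter_upwards [h1] with s hs
    exact Φ.right_inv hs
  have hl : Tendsto (fun x : E => l x - l p) (𝓝 p) (𝓝 0) := by
    have : Continuous (fun x : E => l x - l p) := by fun_prop
    exact this.tendsto' _ _ (by simp)
  -- points of the curve
  have e3 : ∀ᶠ x in 𝓝 p, g x = g p → γ (l x - l p) = x := by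
    filter_upwards [Φ.open_source.mem_nhds hp] with x hx hgx
    rw [hγ]
    show Φ.symm (g p, l p + (l x - l p)) = x
    rw [add_sub_cancel, ← hgx]
    exact Φ.left_inv hx
  rcases (hha.deriv).eventually_eq_zero_or_eventually_ne_zero with hz | hz
  · -- constant on the curve
    obtain ⟨ε, hε, hb⟩ := Metric.eventually_nhds_iff_ball.1 (hz.and hha.eventually_analyticAt)
    filter_upwards [e3, hl (ball_mem_nhds 0 hε)] with x h1 h2 h3 _
    have h4 := isOpen_ball.is_const_of_deriv_eq_zero (convex_ball (0 : ℂ) ε).isPreconnected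
      (fun t ht => (hb t ht).2.differentiableAt.differentiableWithinAt)
      (fun t ht => (hb t ht).1) h2 (mem_ball_self hε)
    have h4' : h (γ (l x - l p)) = h (γ 0) := h4
    rw [h1 h3, hγ0] at h4'
    exact h4'
  · rw [eventually_nhdsWithin_iff] at hz
    have hgd : ∀ᶠ x in 𝓝 p, DifferentiableAt ℂ g x :=
      hg.eventually_analyticAt.mono fun x hx => hx.differentiableAt
    have hhd : ∀ᶠ x in 𝓝 p, DifferentiableAt ℂ h x :=
      hh.eventually_analyticAt.mono fun x hx => hx.differentiableAt
    have hsd : ∀ᶠ x in 𝓝 p, DifferentiableAt ℂ Φ.symm (F x) := by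
      have h1 : ∀ᶠ y in 𝓝 (F p), DifferentiableAt ℂ Φ.symm y :=
        (hsymm.analyticAt.eventually_analyticAt).mono fun y hy => hy.differentiableAt
      exact hFa.continuousAt.eventually h1
    have hleft : ∀ᶠ x in 𝓝 p, ∀ᶠ x' in 𝓝 x, Φ.symm (F x') = x' := by
      rw [eventually_eventually_nhds]
      filter_upwards [Φ.open_source.mem_nhds hp] with x hx
      exact Φ.left_inv hx
    filter_upwards [e3, hl.eventually hz, hl.eventually (e1.eventually_nhds),
      hl.eventually hγa.eventually_analyticAt, hgd, hhd, hsd, hleft] with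
      x h1 h2 h3 h4 h5 h6 h7 h8 h9 ⟨ξ, hξ, hξg, hξh⟩
    by_cases hs : l x - l p = 0
    · have := h1 h9
      rw [hs, hγ0] at this
      rw [this]
    · exfalso
      have hx : γ (l x - l p) = x := h1 h9
      have hne := h2 hs
      set s := l x - l p with hsdef
      have hγd : HasDerivAt γ (deriv γ s) s := h4.differentiableAt.hasDerivAt
      -- derivative of `h ∘ γ`
      have d1 : deriv (fun s => h (γ s)) s = fderiv ℂ h x (deriv γ s) := by
        have h6' : HasFDerivAt h (fderiv ℂ h x) (γ s) := by rw [hx]; exact h6.hasFDerivAt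
        exact (h6'.comp_hasDerivAt s hγd).deriv
      -- derivative of `F ∘ γ`
      have d2 : ((fderiv ℂ g x).prod l) (deriv γ s) = (0, 1) := by
        have h6' : HasFDerivAt F ((fderiv ℂ g x).prod l) (γ s) := by rw [hx]; exact hFd x h5
        have h10 := h6'.comp_hasDerivAt s hγd
        have h11 : HasDerivAt (fun s : ℂ => (g p, l p + s)) ((0 : ℂ), (1 : ℂ)) s :=
          (hasDerivAt_const s (g p)).prodMk ((hasDerivAt_id s).const_add (l p))
        have h12 : (F ∘ γ) =ᶠ[𝓝 s] fun s : ℂ => (g p, l p + s) := h3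
        exact (h10.congr_of_eventuallyEq h12.symm).unique h11
      -- injectivity of the derivative of `F`
      have d3 : ∀ v : E, ((fderiv ℂ g x).prod l) v = 0 → v = 0 := by
        intro v hv
        have h13 := (h7.hasFDerivAt.comp x (hFd x h5))
        have h14 : (Φ.symm ∘ F) =ᶠ[𝓝 x] id := h8
        have h15 : (fderiv ℂ Φ.symm (F x)).comp ((fderiv ℂ g x).prod l) =
            ContinuousLinearMap.id ℂ E :=
          (h13.congr_of_eventuallyEq h14.symm).unique (hasFDerivAt_id x)
        have h16 := congrArg (fun B : E →L[ℂ] E => B v) h15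
        simp only [ContinuousLinearMap.comp_apply, hv, map_zero, ContinuousLinearMap.id_apply]
          at h16
        exact h16.symm
      have d4 : ξ = l ξ • deriv γ s := by
        have h17 : ((fderiv ℂ g x).prod l) (ξ - l ξ • deriv γ s) = 0 := by
          rw [map_sub, map_smul, d2, ContinuousLinearMap.prod_apply, hξg]
          simp
        exact sub_eq_zero.1 (d3 _ h17)
      have d5 : l ξ ≠ 0 := by
        intro h0
        rw [h0, zero_smul] at d4
        exact hξ d4
      apply hne
      rw [d1]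
      have h18 := hξh
      rw [d4, map_smul, smul_eq_mul] at h18
      exact (mul_eq_zero.1 h18).resolve_left d5

end Vale.Agent.P281.H603.Surf
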