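import Vale.Agent.P281.H511.Surf.Spec
import Vale.Agent.P281.H511.Loc
import Vale.Agent.P281.H603.Surf.Curve

/-!
# P281, surfaces (helper603): block S2, the horizontal part of an SNC boundary is étale off a
finite set
-/

open Set Filter Metric Vale.Agent.P281 Vale.Agent.P281.H713 Vale.Agent.P281.H64
open scoped Topology ContDiff Manifold

noncomputable section

namespace Vale.Agent.P281.H603.Surf

open Vale.Agent.P281.H511

/-- an injective linear map `ℂ² → ℂ × ℂ` is an isomorphism -/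
theorem equiv_of_inj {B : Cm 2 →L[ℂ] ℂ × ℂ} (h : ∀ v, B v = 0 → v = 0) :
    ∃ A : Cm 2 ≃L[ℂ] ℂ × ℂ, (A : Cm 2 →L[ℂ] ℂ × ℂ) = B := by
  have hinj : Function.Injective (B : Cm 2 →ₗ[ℂ] ℂ × ℂ) :=
    (injective_iff_map_eq_zero _).2 h
  refine ⟨(LinearMap.linearEquivOfInjective (B : Cm 2 →ₗ[ℂ] ℂ × ℂ) hinj
    (by simp)).toContinuousLinearEquiv, ?_⟩
  ext v <;> rfl

/-- complete a nonzero linear form -/
theorem exists_prod {d : Cm 2 →L[ℂ] ℂ} (hd : d ≠ 0) :
    ∃ (l : Cm 2 →L[ℂ] ℂ) (A : Cm 2 ≃L[ℂ] ℂ × ℂ), (A : Cm 2 →L[ℂ] ℂ × ℂ) = d.prod l := by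
  have hv : ∀ v : Cm 2, v = v 0 • ![1, 0] + v 1 • ![0, 1] := by
    intro v
    funext i
    fin_cases i <;> simp
  by_cases h0 : d ![1, 0] = 0
  · have h1 : d ![0, 1] ≠ 0 := by
      intro h1
      apply hd
      refine ContinuousLinearMap.ext fun v => ?_
      rw [hv v, map_add, map_smul, map_smul, h0, h1]
      simp
    obtain ⟨A, hA⟩ := equiv_of_inj (B := d.prod (ContinuousLinearMap.proj 0)) (by
      intro v h
      have e1 : d v = 0 := congrArg Prod.fst h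
      have e2 : v 0 = 0 := congrArg Prod.snd h
      rw [hv v, map_add, map_smul, map_smul, h0, e2, zero_smul, zero_add, smul_eq_mul] at e1
      have e3 : v 1 = 0 := (mul_eq_zero.1 e1).resolve_right h1
      rw [hv v, e2, e3]
      simp)
    exact ⟨_, A, hA⟩
  · obtain ⟨A, hA⟩ := equiv_of_inj (B := d.prod (ContinuousLinearMap.proj 1)) (by
      intro v h
      have e1 : d v = 0 := congrArg Prod.fst h
      have e2 : v 1 = 0 := congrArg Prod.snd h
      rw [hv v, map_add, map_smul, map_smul, e2, zero_smul, add_zero, smul_eq_mul] at e1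
      have e3 : v 0 = 0 := (mul_eq_zero.1 e1).resolve_right h0
      rw [hv v, e2, e3]
      simp)
    exact ⟨_, A, hA⟩

section
variable {X Y : Type} [TopologicalSpace X] [ChartedSpace (Cm 2) X] [IsManifold 𝓘(ℂ, Cm 2) ω X]
  [TopologicalSpace Y] [ChartedSpace (Cm 1) Y] [IsManifold 𝓘(ℂ, Cm 1) ω Y]

theorem dV_chart_bij {x x' : X} (hx : x' ∈ (chartAt (Cm 2) x).source) :
    Function.Bijective (dV (Cm 2) (chartAt (Cm 2) x : X → Cm 2) x') := by
  have hdet : (dV (Cm 2) (chartAt (Cm 2) x : X → Cm 2) x').det ≠ 0 := jac_chart_ne_zero hx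
  exact (LinearMap.equivOfDetNeZero
      ((dV (Cm 2) (chartAt (Cm 2) x : X → Cm 2) x' : Cm 2 →L[ℂ] Cm 2) : Cm 2 →ₗ[ℂ] Cm 2)
        hdet).bijective

/-- critical points on a smooth curve of a surface -/
theorem curve2 {g h : X → ℂ} {x : X} (hg : HolV (Cm 2) g x) (hh : HolV (Cm 2) h x)
    (hd : dV (Cm 2) g x ≠ 0) :
    ∀ᶠ x' in 𝓝 x, g x' = g x →
      (∃ ξ : Cm 2, ξ ≠ 0 ∧ dV (Cm 2) g x' ξ = 0 ∧ dV (Cm 2) h x' ξ = 0) → h x' = h x := by
  set φ := chartAt (Cm 2) x with hφ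
  have hx : x ∈ φ.source := mem_chart_source _ x
  have h1 : AnalyticAt ℂ (g ∘ φ.symm) (φ x) := (hg.rep hx).analyticAt
  have h2 : AnalyticAt ℂ (h ∘ φ.symm) (φ x) := (hh.rep hx).analyticAt
  have h3 : fderiv ℂ (g ∘ φ.symm) (φ x) ≠ 0 := by
    intro h0
    apply hd
    rw [dV_eq_chart hx hg]
    rw [← hφ, h0]
    rfl
  obtain ⟨l, A, hA⟩ := exists_prod h3
  filter_upwards [(φ.continuousAt hx).eventually (curve h1 h2 hA),
    φ.open_source.mem_nhds hx, hg.eventually, hh.eventually] with x' a1 a2 a3 a4 a5 ⟨ξ, b1, b2, b3⟩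
  have hbij := dV_chart_bij (x := x) a2
  have e1 := dV_eq_chart (E := Cm 2) a2 a3
  have e2 := dV_eq_chart (E := Cm 2) a2 a4
  have h4 := a1 (by
    simp only [Function.comp_apply, φ.left_inv a2, φ.left_inv hx]
    exact a5) ⟨dV (Cm 2) (φ : X → Cm 2) x' ξ, ?_, ?_, ?_⟩
  · simp only [Function.comp_apply, φ.left_inv a2, φ.left_inv hx] at h4
    exact h4
  · intro h0
    apply b1
    exact hbij.1 (by rw [h0, map_zero])
  · rw [e1] at b2
    exact b2
  · rw [e2] at b3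
    exact b3

theorem curve3 {f : X → Y} (hf : ContMDiff 𝓘(ℂ, Cm 2) 𝓘(ℂ, Cm 1) ω f) {g : X → ℂ} {x : X}
    (hg : HolV (Cm 2) g x) (h0 : g x = 0) (hd : dV (Cm 2) g x ≠ 0) :
    ∀ᶠ x' in 𝓝 x, g x' = 0 →
      (∃ ξ : Cm 2, ξ ≠ 0 ∧ dM (Cm 2) (Cm 1) f x' ξ = 0 ∧ dV (Cm 2) g x' ξ = 0) →
      f x' = f x := by
  set χ := chartAt (Cm 1) (f x) with hχ
  have hs : f x ∈ χ.source := mem_chart_source _ _
  have hat : χ ∈ atlas (Cm 1) Y := chart_mem_atlas _ _
  have h1 : ∀ x', f x' ∈ χ.source → HolV (Cm 2) (fun x => χ (f x)) x' := fun x' hx' =>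
    HolV.comp (E' := Cm 1) (holV_chart hat hx') (hf x')
  have h2 : ∀ x', f x' ∈ χ.source → HolV (Cm 2) (fun x => χ (f x) 0) x' := fun x' hx' =>
    HolV.comp_contDiff (G := fun v : Cm 1 => v 0) (by fun_prop) (h1 x' hx')
  filter_upwards [curve2 hg (h2 x hs) hd, (hf.continuous.continuousAt).eventually
    (χ.open_source.mem_nhds hs)] with x' a1 a2 a3 ⟨ξ, b1, b2, b3⟩
  have h3 : dV (Cm 2) (fun x => χ (f x) 0) x' ξ = 0 := by
    rw [dV_comp_contDiff (G := fun v : Cm 1 => v 0) (by fun_prop) (h1 x' a2),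
      dV_comp (E' := Cm 1) (holV_chart hat a2) (hf x')]
    show fderiv ℂ (fun v : Cm 1 => v 0) (χ (f x'))
      (dV (Cm 1) χ (f x') (dM (Cm 2) (Cm 1) f x' ξ)) = 0
    rw [b2, map_zero, map_zero]
  have h4 := a1 (by rw [a3, h0]) ⟨ξ, b1, b3, h3⟩
  have h5 : χ (f x') = χ (f x) := by
    funext i
    rw [Subsingleton.elim i 0]
    exact h4
  exact χ.injOn a2 hs h5

/-- two transversal curves of a surface meet in isolated points -/
theorem cross2 {g h : X → ℂ} {x : X} (hg : HolV (Cm 2) g x) (hh : HolV (Cm 2) h x)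
    (hinj : ∀ ξ : Cm 2, dV (Cm 2) g x ξ = 0 → dV (Cm 2) h x ξ = 0 → ξ = 0) :
    ∀ᶠ x' in 𝓝 x, g x' = g x → h x' = h x → x' = x := by
  set φ := chartAt (Cm 2) x with hφ
  have hx : x ∈ φ.source := mem_chart_source _ x
  have h1 : AnalyticAt ℂ (g ∘ φ.symm) (φ x) := (hg.rep hx).analyticAt
  have h2 : AnalyticAt ℂ (h ∘ φ.symm) (φ x) := (hh.rep hx).analyticAt
  have hbij := dV_chart_bij (x := x) hx
  have e1 := dV_eq_chart (E := Cm 2) hx hg
  have e2 := dV_eq_chart (E := Cm 2) hx hh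
  obtain ⟨A, hA⟩ := equiv_of_inj
    (B := (fderiv ℂ (g ∘ φ.symm) (φ x)).prod (fderiv ℂ (h ∘ φ.symm) (φ x))) (by
      intro v hv
      obtain ⟨ξ, rfl⟩ := hbij.2 v
      have c1 : fderiv ℂ (g ∘ φ.symm) (φ x) (dV (Cm 2) (φ : X → Cm 2) x ξ) = 0 :=
        congrArg Prod.fst hv
      have c2 : fderiv ℂ (h ∘ φ.symm) (φ x) (dV (Cm 2) (φ : X → Cm 2) x ξ) = 0 :=
        congrArg Prod.snd hv
      have h0 := hinj ξ (by rw [e1]; exact c1) (by rw [e2]; exact c2)
      rw [h0, map_zero])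
  have hF : HasFDerivAt (fun w => ((g ∘ φ.symm) w, (h ∘ φ.symm) w))
      (A : Cm 2 →L[ℂ] ℂ × ℂ) (φ x) := by
    rw [hA]
    exact h1.differentiableAt.hasFDerivAt.prodMk h2.differentiableAt.hasFDerivAt
  filter_upwards [(φ.continuousAt hx).eventually (cross (h1.prod h2).contDiffAt hF),
    φ.open_source.mem_nhds hx] with x' a1 a2 a3 a4
  refine φ.injOn a2 hx (a1 ?_)
  simp only [Function.comp_apply, φ.left_inv a2, φ.left_inv hx, a3, a4]

/-- the local statement -/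
theorem loc [T2Space X] {f : X → Y} (hf : ContMDiff 𝓘(ℂ, Cm 2) 𝓘(ℂ, Cm 1) ω f) {Δ : Set X → ℝ}
    (hΔ : J.IsSNC (Cm 2) Δ) (x : X) :
    ∀ᶠ x' in 𝓝 x, (∀ D ∈ {D | Δ D ≠ 0}, x' ∈ D → (∃ u, J.IsLocalEq (Cm 2) D u x' ∧
      ∀ ξ : Cm 2, dM (Cm 2) (Cm 1) f x' ξ = 0 → J.dif (Cm 2) u x' ξ = 0 → ξ = 0) ∨ f x' = f x) ∧
      ∀ D ∈ {D | Δ D ≠ 0}, ∀ D' ∈ {D | Δ D ≠ 0}, D ≠ D' → x' ∈ D → x' ∈ D' → f x' = f x := by
  obtain ⟨hfin, hprime, -, hsurj⟩ := hΔ
  have hg : ∀ D, ∃ g : X → ℂ, Δ D ≠ 0 → J.IsLocalEq (Cm 2) D g x := by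
    intro D
    by_cases hD : Δ D ≠ 0
    · obtain ⟨g, hg⟩ := (hprime D hD).2.1 x
      exact ⟨g, fun _ => hg⟩
    · exact ⟨0, fun h => absurd h hD⟩
  choose g hg using hg
  have hs := hsurj x g (fun D hD _ => hg D hD)
  have hol : ∀ D, Δ D ≠ 0 → HolV (Cm 2) (g D) x := by
    intro D hD
    obtain ⟨V, -, hxV, h1, -, -⟩ := hg D hD
    exact h1 x hxV
  have hzero : ∀ D, Δ D ≠ 0 → x ∈ D → g D x = 0 := by
    intro D hD hxD
    obtain ⟨V, -, hxV, -, h2, -⟩ := hg D hD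
    exact (h2 x hxV).1 hxD
  have hev : ∀ D, Δ D ≠ 0 → ∀ᶠ x' in 𝓝 x, J.IsLocalEq (Cm 2) D (g D) x' := by
    intro D hD
    obtain ⟨V, hV, hxV, h1, h2, h3⟩ := hg D hD
    filter_upwards [hV.mem_nhds hxV] with x' hx'
    exact ⟨V, hV, hx', h1, h2, h3⟩
  have hmem : ∀ D x', J.IsLocalEq (Cm 2) D (g D) x' → x' ∈ D → g D x' = 0 := by
    rintro D x' ⟨V, -, hxV, -, h2, -⟩ hxD
    exact (h2 x' hxV).1 hxD
  have hnot : ∀ D, Δ D ≠ 0 → x ∉ D → ∀ᶠ x' in 𝓝 x, x' ∉ D := fun D hD hxD =>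
    (hprime D hD).1.isOpen_compl.mem_nhds hxD
  rw [eventually_and]
  constructor
  · rw [eventually_all_finite hfin]
    intro D hD
    by_cases hxD : x ∈ D
    · have hdne : dV (Cm 2) (g D) x ≠ 0 := by
        intro h0
        obtain ⟨ξ, hξ⟩ := hs (fun _ => 1)
        have h1 := congrFun hξ ⟨D, hD, hxD⟩
        have h2 : dV (Cm 2) (g D) x ξ = 1 := h1
        rw [h0] at h2
        exact zero_ne_one h2
      filter_upwards [curve3 hf (hol D hD) (hzero D hD hxD) hdne, hev D hD] with x' a1 a2 a3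
      by_cases hgood : ∀ ξ : Cm 2, dM (Cm 2) (Cm 1) f x' ξ = 0 → J.dif (Cm 2) (g D) x' ξ = 0 →
          ξ = 0
      · exact Or.inl ⟨g D, a2, hgood⟩
      · right
        push Not at hgood
        obtain ⟨ξ, b1, b2, b3⟩ := hgood
        exact a1 (hmem D x' a2 a3) ⟨ξ, b3, b1, b2⟩
    · filter_upwards [hnot D hD hxD] with x' a1 a2
      exact absurd a2 a1
  · rw [eventually_all_finite hfin]
    intro D hD
    rw [eventually_all_finite hfin]
    intro D' hD'
    by_cases hxD : x ∈ D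
    · by_cases hxD' : x ∈ D'
      · by_cases hne : D = D'
        · exact Eventually.of_forall fun x' h => absurd hne h
        · have hinj : ∀ ξ : Cm 2, dV (Cm 2) (g D) x ξ = 0 → dV (Cm 2) (g D') x ξ = 0 →
              ξ = 0 := by
            set B : Cm 2 →ₗ[ℂ] ℂ × ℂ :=
              (((dV (Cm 2) (g D) x).prod (dV (Cm 2) (g D') x) : Cm 2 →L[ℂ] ℂ × ℂ) :
                Cm 2 →ₗ[ℂ] ℂ × ℂ) with hB
            have hBs : Function.Surjective B := by
              rintro ⟨a, b⟩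
              classical
              obtain ⟨ξ, hξ⟩ := hs (fun G => if G.1 = D then a else b)
              refine ⟨ξ, ?_⟩
              have h1 := congrFun hξ ⟨D, hD, hxD⟩
              have h2 := congrFun hξ ⟨D', hD', hxD'⟩
              have h1' : dV (Cm 2) (g D) x ξ = a := by
                have : dV (Cm 2) (g D) x ξ = if D = D then a else b := h1
                rw [if_pos rfl] at this
                exact this
              have h2' : dV (Cm 2) (g D') x ξ = b := by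
                have : dV (Cm 2) (g D') x ξ = if D' = D then a else b := h2
                rw [if_neg (fun h => hne h.symm)] at this
                exact this
              show (dV (Cm 2) (g D) x ξ, dV (Cm 2) (g D') x ξ) = (a, b)
              rw [h1', h2']
            have hBi : Function.Injective B :=
              (LinearMap.injective_iff_surjective_of_finrank_eq_finrank (by simp)).2 hBs
            intro ξ h1 h2
            apply hBi
            rw [map_zero]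
            show (dV (Cm 2) (g D) x ξ, dV (Cm 2) (g D') x ξ) = 0
            rw [h1, h2]
            rfl
          filter_upwards [cross2 (hol D hD) (hol D' hD') hinj, hev D hD, hev D' hD'] with
            x' a1 a2 a3 _ a5 a6
          have h1 := a1 (by rw [hmem D x' a2 a5, hzero D hD hxD])
            (by rw [hmem D' x' a3 a6, hzero D' hD' hxD'])
          rw [h1]
      · filter_upwards [hnot D' hD' hxD'] with x' a1 _ _ a2
        exact absurd a2 a1
    · filter_upwards [hnot D hD hxD] with x' a1 _ a2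
      exact absurd a2 a1

end

/-- **S2** -/
theorem s2 : Vale.Agent.P281.H511.Surf.S2Stmt := by
  intro X Y _ _ _ _ _ _ _ _ _ f Δ hf hΔ
  choose U hU hUo hxU using fun x : X => eventually_nhds_iff.1 (loc hf hΔ x)
  obtain ⟨t, ht⟩ := isCompact_univ.elim_finite_subcover U hUo
    (fun x _ => mem_iUnion.2 ⟨x, hxU x⟩)
  refine ⟨f '' t, t.finite_toSet.image f, fun S hTS => ⟨?_, ?_⟩⟩
  · intro D hD x hxD hxS
    obtain ⟨x₁, hx₁, hx₁'⟩ := mem_iUnion₂.1 (ht (mem_univ x))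
    rcases (hU x₁ x hx₁').1 D hD.1 hxD with h | h
    · exact h
    · exact absurd (hTS ⟨x₁, hx₁, h.symm⟩) hxS
  · intro D hD D' hD' hne x hx
    obtain ⟨x₁, hx₁, hx₁'⟩ := mem_iUnion₂.1 (ht (mem_univ x))
    exact hTS ⟨x₁, hx₁, ((hU x₁ x hx₁').2 D hD.1 D' hD'.1 hne hx.1 hx.2).symm⟩

end Vale.Agent.P281.H603.Surf
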