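import Vale.Agent.P281.H603.Surf.Modif

/-!
# P281, surfaces (helper603): Q1 when `dim Y = dim X` or `dim Y = 0`
-/

open Set Filter Metric Vale.Agent.P281 Vale.Agent.P281.H713 Vale.Agent.P281.H64
open scoped Topology ContDiff Manifold ENNReal

noncomputable section

namespace Vale.Agent.P281.H603.Surf

section
variable {n : ℕ} {X : Type} [TopologicalSpace X] [ChartedSpace (Cm n) X]

theorem isModif_id [T2Space X] [IsManifold 𝓘(ℂ, Cm n) ω X] :
    TZ.S.IsModif (Cm n) (id : X → X) :=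
  ⟨⟨inferInstance, inferInstance, inferInstance, inferInstance⟩, contMDiff_id, isProperMap_id,
    univ, isOpen_univ, dense_univ, by rw [preimage_univ]; exact dense_univ,
    fun x _ => ⟨x, rfl, fun _ h => h⟩⟩

/-- the identity is a morphism of orbifolds -/
theorem orbMor_id {Δ : Set X → ℝ} (hΔ : J.IsSNC (Cm n) Δ) :
    TZ.S.OrbMor (Cm n) (Cm n) (id : X → X) Δ Δ := by
  intro z G g e w k hG hg he hez hde hw hwz hk hev
  have hΔ0 : ∀ D, 0 ≤ Δ D := fun D => by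
    obtain ⟨q, hq, h0, -⟩ := hΔ.2.2.1 D
    rw [hq]
    exact_mod_cast h0
  have hΔ1 : ∀ D, Δ D ≤ 1 := fun D => by
    obtain ⟨q, hq, -, h1⟩ := hΔ.2.2.1 D
    rw [hq]
    exact_mod_cast h1
  have hzG : z ∈ G := by
    obtain ⟨V, -, hzV, -, h2, -⟩ := hg
    refine (h2 z hzV).2 ?_
    have h3 : g (id z) = e z ^ k * w z := hev.self_of_nhds
    rw [hez, zero_pow hk.ne', zero_mul] at h3
    exact h3
  have h1 : Δ G ≤ ∑ᶠ (D : Set X) (_ : z ∈ D), Δ D := by
    have h2 : (∑ᶠ (_ : z ∈ G), Δ G) = Δ G := by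
      classical
      rw [finsum_eq_if, if_pos hzG]
    have h3 := single_le_finsum (f := fun D : Set X => ∑ᶠ (_ : z ∈ D), Δ D) G ?_ ?_
    · exact h2.symm.le.trans h3
    · refine hΔ.1.subset fun D hD => ?_
      intro h0
      apply hD
      show (∑ᶠ (_ : z ∈ D), Δ D) = 0
      rw [h0, finsum_zero]
    · intro D
      exact finsum_nonneg fun _ => hΔ0 D
  have h4 : (1 : ℝ) ≤ k := by exact_mod_cast hk
  have h5 : 1 * (1 - Δ G) ≤ k * (1 - Δ G) :=
    mul_le_mul_of_nonneg_right h4 (sub_nonneg.2 (hΔ1 G))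
  linarith

/-- the orbifold base of the identity -/
theorem base_id {Δ : Set X → ℝ} (hΔ : J.IsSNC (Cm n) Δ) :
    TZ.S.base (Cm n) (Cm n) (id : X → X) Δ = Δ := by
  funext G
  have hΔ0 : 0 ≤ Δ G := by
    obtain ⟨q, hq, h0, -⟩ := hΔ.2.2.1 G
    rw [hq]
    exact_mod_cast h0
  have hΔ1 : Δ G ≤ 1 := by
    obtain ⟨q, hq, -, h1⟩ := hΔ.2.2.1 G
    rw [hq]
    exact_mod_cast h1
  by_cases hG : J.IsPrime (Cm n) G
  · rw [TZ.S.base, if_pos hG]
    have h1 : sInf {k : ℕ | ∃ x ∈ G, ∃ e g w, J.IsLocalEq (Cm n) G e x ∧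
        J.IsLocalEq (Cm n) G g (id x) ∧ J.HolAt (Cm n) w x ∧ w x ≠ 0 ∧
          ∀ᶠ z in 𝓝 x, g (id z) = e z ^ k * w z} = 1 := by
      apply le_antisymm
      · apply Nat.sInf_le
        obtain ⟨x, hx, g, hg, -⟩ := hG.2.2.nonempty
        exact ⟨x, hx, g, g, fun _ => 1, hg, hg, contMDiffAt_const, one_ne_zero,
          Eventually.of_forall fun z => by rw [pow_one, mul_one]; rfl⟩
      · rw [Nat.one_le_iff_ne_zero]
        intro h0
        rw [Nat.sInf_eq_zero] at h0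
        rcases h0 with ⟨x, hx, e, g, w, -, hg, -, hw, hev⟩ | h0
        · obtain ⟨V, -, hxV, -, h2, -⟩ := hg
          have h3 : g (id x) = e x ^ 0 * w x := hev.self_of_nhds
          rw [pow_zero, one_mul] at h3
          exact hw (h3.symm.trans ((h2 x hxV).1 hx))
        · obtain ⟨x, hx, g, hg, -⟩ := hG.2.2.nonempty
          have : (1 : ℕ) ∈ (∅ : Set ℕ) := by
            rw [← h0]
            exact ⟨x, hx, g, g, fun _ => 1, hg, hg, contMDiffAt_const, one_ne_zero,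
              Eventually.of_forall fun z => by rw [pow_one, mul_one]; rfl⟩
          exact this
    have h2 : (⨅ (D : Set X) (_ : J.IsPrime (Cm n) D ∧ closure ((id : X → X) '' D) = G),
        ((sInf {k : ℕ | ∃ x ∈ D, ∃ e g w, J.IsLocalEq (Cm n) D e x ∧
          J.IsLocalEq (Cm n) G g (id x) ∧ J.HolAt (Cm n) w x ∧
          w x ≠ 0 ∧ ∀ᶠ z in 𝓝 x, g (id z) = e z ^ k * w z} : ℕ) : ℝ≥0∞) *
        (1 - ENNReal.ofReal (Δ D))⁻¹) = (1 - ENNReal.ofReal (Δ G))⁻¹ := by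
      apply le_antisymm
      · have h4 : closure ((id : X → X) '' G) = G := by rw [image_id, hG.1.closure_eq]
        refine (iInf₂_le G ⟨hG, h4⟩).trans ?_
        rw [h1, Nat.cast_one, one_mul]
      · refine le_iInf₂ fun D hD => ?_
        have h3 : D = G := by
          rw [← hD.2, image_id, hD.1.1.closure_eq]
        subst h3
        rw [h1, Nat.cast_one, one_mul]
    rw [h2, inv_inv, ENNReal.sub_sub_cancel ENNReal.one_ne_top, ENNReal.toReal_ofReal hΔ0]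
    rw [ENNReal.ofReal_le_one]
    exact hΔ1
  · rw [TZ.S.base, if_neg hG]
    by_contra h
    exact hG (hΔ.2.1 G (fun h' => h h'.symm))

/-- **Q1 when `dim Y = dim X`**, in every dimension: `κ(f | Δ) ≤ κ(X, K_X + Δ)` (the general fibre is
a point). -/
theorem kap_le_of_dim_eq {Y : Type} [IsManifold 𝓘(ℂ, Cm n) ω X] [T2Space X] [CompactSpace X]
    [ConnectedSpace X] [TopologicalSpace Y] [T2Space Y] [ChartedSpace (Cm n) Y]
    [IsManifold 𝓘(ℂ, Cm n) ω Y] {f : X → Y} {Δ : Set X → ℝ}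
    (hf : ContMDiff 𝓘(ℂ, Cm n) 𝓘(ℂ, Cm n) ω f) (hc : ∀ y, IsConnected (f ⁻¹' {y}))
    (hΔ : J.IsSNC (Cm n) Δ) :
    TZ.S.kap (Cm n) (Cm n) ⟨X, Y, inferInstance, inferInstance, inferInstance, inferInstance, f,
      Δ⟩ ≤ TZ.S.kodX (Cm n) Δ := by
  have h1 : TZ.S.Linked (Cm n) (Cm n)
      ⟨X, Y, inferInstance, inferInstance, inferInstance, inferInstance, f, Δ⟩
      ⟨X, X, inferInstance, inferInstance, inferInstance, inferInstance, id, Δ⟩ := by
    apply Relation.EqvGen.symm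
    apply Relation.EqvGen.rel
    refine ⟨id, f, isModif_id, isModif hf hc, fun x => rfl, hf, contMDiff_id, hΔ, hΔ,
      fun D _ _ => ?_, orbMor_id hΔ⟩
    show Δ D = Δ (id '' D)
    rw [image_id]
  refine (iInf₂_le _ h1).trans ?_
  show TZ.S.kodX (Cm n) (TZ.S.base (Cm n) (Cm n) (id : X → X) Δ) ≤ TZ.S.kodX (Cm n) Δ
  rw [base_id hΔ]

/-- the Kodaira dimension of a manifold of dimension `0` is at most `0` -/
theorem kod_zero {E₀ F : Type} [NormedAddCommGroup E₀] [NormedSpace ℂ E₀] [Subsingleton E₀]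
    [TopologicalSpace F] [ChartedSpace E₀ F] {ι : Type} (eqn : ι → F → (F → ℂ) → Prop)
    (c : ι → ℝ) : J.kod E₀ eqn c ≤ 0 := by
  refine iSup₂_le fun j hj => ?_
  obtain ⟨m, k, s, z, -, -, -, -, -, hsurj⟩ := hj
  have h0 : j = 0 := by
    by_contra h
    have : NeZero j := ⟨h⟩
    obtain ⟨ξ, hξ⟩ := hsurj (fun _ => 1)
    obtain ⟨ξ', hξ'⟩ := hsurj (fun _ => 0)
    have h1 : ξ = ξ' := Subsingleton.elim _ _
    rw [h1, hξ'] at hξ
    have h2 := congrFun hξ 0
    exact zero_ne_one h2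
  rw [h0]
  exact le_refl _

/-- **Q1 when `dim Y = 0`**: `κ(f | Δ) ≤ 0` (the fibre is `X`). -/
theorem kap_le_zero {Y : Type} [TopologicalSpace Y] [ChartedSpace (Cm 0) Y] (f : X → Y)
    (Δ : Set X → ℝ) :
    TZ.S.kap (Cm n) (Cm 0) ⟨X, Y, inferInstance, inferInstance, inferInstance, inferInstance, f,
      Δ⟩ ≤ 0 :=
  (iInf₂_le _ (Relation.EqvGen.refl _)).trans (kod_zero _ _)

end

end Vale.Agent.P281.H603.Surf
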