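import Vale.Agent.P281.H511.Surf.Spec
import Vale.Agent.P281.H511.Loc
import Mathlib.MeasureTheory.Function.Jacobian

/-!
# P281, surfaces (helper603): a fibration between manifolds of the same dimension is a modification
-/

open Set Filter Metric MeasureTheory Vale.Agent.P281 Vale.Agent.P281.H713 Vale.Agent.P281.H64
open scoped Topology ContDiff Manifold

noncomputable section

namespace Vale.Agent.P281.H603.Surf

open Vale.Agent.P281.H511

/-- Sard's theorem for holomorphic maps of `ℂⁿ` -/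
theorem sard_local {n : ℕ} {F : Cm n → Cm n} {S : Set (Cm n)}
    (hF : ∀ x ∈ S, DifferentiableAt ℂ F x) (hdet : ∀ x ∈ S, (fderiv ℂ F x).det = 0) :
    volume (F '' S) = 0 := by
  refine addHaar_image_eq_zero_of_det_fderivWithin_eq_zero volume
    (f' := fun x => (fderiv ℂ F x).restrictScalars ℝ) (fun x hx => ?_) (fun x hx => ?_)
  · exact ((hF x hx).hasFDerivAt.restrictScalars ℝ).hasFDerivWithinAt
  · have h1 : (((fderiv ℂ F x).restrictScalars ℝ : Cm n →L[ℝ] Cm n) : Cm n →ₗ[ℝ] Cm n) =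
        ((fderiv ℂ F x : Cm n →L[ℂ] Cm n) : Cm n →ₗ[ℂ] Cm n).restrictScalars ℝ := rfl
    have h2 : ((fderiv ℂ F x : Cm n →L[ℂ] Cm n) : Cm n →ₗ[ℂ] Cm n).det = 0 := hdet x hx
    show LinearMap.det (((fderiv ℂ F x).restrictScalars ℝ : Cm n →L[ℝ] Cm n) :
      Cm n →ₗ[ℝ] Cm n) = 0
    rw [h1, LinearMap.det_restrictScalars, h2, Algebra.norm_zero]

/-- a point where the Jacobian does not vanish is isolated in its fibre -/
theorem isolated_local {n : ℕ} {F : Cm n → Cm n} {p : Cm n} (hF : AnalyticAt ℂ F p)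
    (hdet : (fderiv ℂ F p).det ≠ 0) : ∀ᶠ x in 𝓝 p, F x = F p → x = p := by
  set A : Cm n ≃L[ℂ] Cm n := (LinearMap.equivOfDetNeZero
    ((fderiv ℂ F p : Cm n →L[ℂ] Cm n) : Cm n →ₗ[ℂ] Cm n) hdet).toContinuousLinearEquiv with hA
  have h1 : (A : Cm n →L[ℂ] Cm n) = fderiv ℂ F p := by
    ext v
    rfl
  have hF' : HasFDerivAt F (A : Cm n →L[ℂ] Cm n) p := by
    rw [h1]
    exact hF.differentiableAt.hasFDerivAt
  have hF2 : ContDiffAt ℂ ω F p := hF.contDiffAt
  set Φ := hF2.toOpenPartialHomeomorph F hF' (by simp) with hΦ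
  have h2 : p ∈ Φ.source := hF2.mem_toOpenPartialHomeomorph_source hF' (by simp)
  filter_upwards [Φ.open_source.mem_nhds h2] with x hx he
  exact Φ.injOn hx h2 he

section
variable {n : ℕ} {X Y : Type} [TopologicalSpace X] [ChartedSpace (Cm n) X]
  [IsManifold 𝓘(ℂ, Cm n) ω X]
  [TopologicalSpace Y] [ChartedSpace (Cm n) Y] [IsManifold 𝓘(ℂ, Cm n) ω Y] {f : X → Y}

/-- the map `f` in the charts at `x₀`, `y₀` is holomorphic -/
theorem rep_analytic (hf : ContMDiff 𝓘(ℂ, Cm n) 𝓘(ℂ, Cm n) ω f) {x₀ : X} {y₀ : Y} {x : X}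
    (hx : x ∈ (chartAt (Cm n) x₀).source) (hy : f x ∈ (chartAt (Cm n) y₀).source) :
    AnalyticAt ℂ ((fun z => chartAt (Cm n) y₀ (f z)) ∘ (chartAt (Cm n) x₀).symm)
      (chartAt (Cm n) x₀ x) := by
  have h1 : HolV (Cm n) (fun z => chartAt (Cm n) y₀ (f z)) x :=
    HolV.comp (E' := Cm n) (HolV.chart hy) (hf x)
  exact (h1.rep hx).analyticAt

theorem det_iff (hf : ContMDiff 𝓘(ℂ, Cm n) 𝓘(ℂ, Cm n) ω f) {x₀ : X} {y₀ : Y} {x : X}
    (hx : x ∈ (chartAt (Cm n) x₀).source) (hy : f x ∈ (chartAt (Cm n) y₀).source) :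
    (dM (Cm n) (Cm n) f x).det = 0 ↔
      (fderiv ℂ ((fun z => chartAt (Cm n) y₀ (f z)) ∘ (chartAt (Cm n) x₀).symm)
        (chartAt (Cm n) x₀ x)).det = 0 := by
  have h1 : HolV (Cm n) (fun z => chartAt (Cm n) y₀ (f z)) x :=
    HolV.comp (E' := Cm n) (HolV.chart hy) (hf x)
  have h2 := dV_eq_chart (E := Cm n) hx h1
  have h3 := dV_comp (E := Cm n) (E' := Cm n) (HolV.chart (E := Cm n) hy) (hf x)
  have h4 := congrArg ContinuousLinearMap.det (h3.symm.trans h2)
  rw [clm_det_comp, clm_det_comp] at h4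
  have h5 : (dV (Cm n) (chartAt (Cm n) y₀ : Y → Cm n) (f x)).det ≠ 0 := jac_chart_ne_zero hy
  have h6 : (dV (Cm n) (chartAt (Cm n) x₀ : X → Cm n) x).det ≠ 0 := jac_chart_ne_zero hx
  constructor
  · intro h
    rw [h, mul_zero] at h4
    exact (mul_eq_zero.1 h4.symm).resolve_right h6
  · intro h
    rw [h, zero_mul] at h4
    exact (mul_eq_zero.1 h4).resolve_left h5

/-- the critical set -/
def Crit (f : X → Y) : Set X := {x | (dM (Cm n) (Cm n) f x).det = 0}

/-- the Jacobian is locally a holomorphic function -/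
theorem exists_jac (hf : ContMDiff 𝓘(ℂ, Cm n) 𝓘(ℂ, Cm n) ω f) (x : X) :
    ∃ θ : X → ℂ, HolV (Cm n) θ x ∧ ∀ᶠ z in 𝓝 x, z ∈ (Crit (n := n) f)ᶜ ↔ θ z ≠ 0 := by
  have hx : x ∈ (chartAt (Cm n) x).source := mem_chart_source _ x
  have hy : f x ∈ (chartAt (Cm n) (f x)).source := mem_chart_source _ _
  set F := (fun z => chartAt (Cm n) (f x) (f z)) ∘ (chartAt (Cm n) x).symm with hF
  have h1 : AnalyticAt ℂ F (chartAt (Cm n) x x) := rep_analytic hf hx hy
  have h2 : ContDiffAt ℂ ω (fun w => (fderiv ℂ F w).det) (chartAt (Cm n) x x) :=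
    ContDiffAt.comp (g := fun A : Cm n →L[ℂ] Cm n => A.det) _
      (contDiff_det (V := Cm n)).contDiffAt h1.fderiv.contDiffAt
  refine ⟨fun z => (fderiv ℂ F (chartAt (Cm n) x z)).det,
    HolV.comp_contDiff (G := fun w => (fderiv ℂ F w).det) h2 (HolV.chart hx), ?_⟩
  filter_upwards [(chartAt (Cm n) x).open_source.mem_nhds hx,
    (hf.continuous.continuousAt).eventually ((chartAt (Cm n) (f x)).open_source.mem_nhds hy)] with
    z h3 h4
  exact not_congr (det_iff hf h3 h4)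

theorem isClosed_crit (hf : ContMDiff 𝓘(ℂ, Cm n) 𝓘(ℂ, Cm n) ω f) :
    IsClosed (Crit (n := n) f) := by
  rw [← isOpen_compl_iff, isOpen_iff_mem_nhds]
  intro x hx
  obtain ⟨θ, h1, h2⟩ := exists_jac hf x
  have h3 : θ x ≠ 0 := h2.self_of_nhds.1 hx
  filter_upwards [h1.continuousAt.eventually_ne h3, h2] with z a1 a2
  exact a2.2 a1

/-- a noncritical point is isolated in its fibre -/
theorem isolated (hf : ContMDiff 𝓘(ℂ, Cm n) 𝓘(ℂ, Cm n) ω f) {x : X}
    (hx : x ∉ Crit (n := n) f) : ∀ᶠ z in 𝓝 x, f z = f x → z = x := by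
  have h1 : x ∈ (chartAt (Cm n) x).source := mem_chart_source _ x
  have h2 : f x ∈ (chartAt (Cm n) (f x)).source := mem_chart_source _ _
  have h3 := isolated_local (rep_analytic hf h1 h2) (fun h => hx ((det_iff hf h1 h2).2 h))
  filter_upwards [((chartAt (Cm n) x).continuousAt h1).eventually h3,
    (chartAt (Cm n) x).open_source.mem_nhds h1] with z a1 a2 a3
  refine (chartAt (Cm n) x).injOn a2 h1 (a1 ?_)
  simp only [Function.comp_apply, (chartAt (Cm n) x).left_inv a2, (chartAt (Cm n) x).left_inv h1,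
    a3]

/-- a connected fibre with a noncritical point is a point -/
theorem fibre_eq (hf : ContMDiff 𝓘(ℂ, Cm n) 𝓘(ℂ, Cm n) ω f) [T2Space X]
    (hc : ∀ y, IsConnected (f ⁻¹' {y})) {x x' : X}
    (hx : x ∉ Crit (n := n) f) (he : f x' = f x) : x' = x := by
  by_contra hne
  obtain ⟨U, hU, hUo, hxU⟩ := eventually_nhds_iff.1 (isolated hf hx)
  have h1 := (hc (f x)).isPreconnected U {x}ᶜ hUo isOpen_compl_singleton (by
    intro z hz
    by_cases h : z = x
    · exact Or.inl (by rw [h]; exact hxU)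
    · exact Or.inr h) ⟨x, rfl, hxU⟩ ⟨x', he, hne⟩
  obtain ⟨z, hz1, hz2, hz3⟩ := h1
  exact hz3 (hU z hz2 hz1)

/-- the critical values have empty interior (Sard) -/
theorem interior_crit [CompactSpace X] (hf : ContMDiff 𝓘(ℂ, Cm n) 𝓘(ℂ, Cm n) ω f) :
    interior (f '' Crit (n := n) f) = ∅ := by
  by_contra hne
  obtain ⟨y, hy⟩ := nonempty_iff_ne_empty.2 hne
  set ψ := chartAt (Cm n) y with hψ
  have hys : y ∈ ψ.source := mem_chart_source _ y
  obtain ⟨t, ht⟩ := isCompact_univ.elim_finite_subcover (fun x : X => (chartAt (Cm n) x).source)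
    (fun x => (chartAt (Cm n) x).open_source) (fun x _ => mem_iUnion.2 ⟨x, mem_chart_source _ x⟩)
  -- the image of the critical values in the chart
  set A : X → Set (Cm n) := fun x₀ =>
    ((fun z => ψ (f z)) ∘ (chartAt (Cm n) x₀).symm) ''
      {w | w ∈ (chartAt (Cm n) x₀).target ∧ f ((chartAt (Cm n) x₀).symm w) ∈ ψ.source ∧
        (chartAt (Cm n) x₀).symm w ∈ Crit (n := n) f} with hA
  have hnull : ∀ x₀, volume (A x₀) = 0 := by
    intro x₀
    refine sard_local (fun w hw => ?_) (fun w hw => ?_)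
    · have h1 : (chartAt (Cm n) x₀).symm w ∈ (chartAt (Cm n) x₀).source :=
        (chartAt (Cm n) x₀).map_target hw.1
      have h2 := rep_analytic hf h1 hw.2.1
      rw [(chartAt (Cm n) x₀).right_inv hw.1] at h2
      exact h2.differentiableAt
    · have h1 : (chartAt (Cm n) x₀).symm w ∈ (chartAt (Cm n) x₀).source :=
        (chartAt (Cm n) x₀).map_target hw.1
      have h2 := (det_iff hf h1 hw.2.1).1 hw.2.2
      rw [(chartAt (Cm n) x₀).right_inv hw.1] at h2
      exact h2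
  have hsub : ψ '' (interior (f '' Crit (n := n) f) ∩ ψ.source) ⊆ ⋃ x₀ ∈ t, A x₀ := by
    rintro _ ⟨y', ⟨h1, h2⟩, rfl⟩
    obtain ⟨x, hx, rfl⟩ := interior_subset h1
    obtain ⟨x₀, hx₀, hx₀'⟩ := mem_iUnion₂.1 (ht (mem_univ x))
    have h3 : (chartAt (Cm n) x₀).symm (chartAt (Cm n) x₀ x) = x :=
      (chartAt (Cm n) x₀).left_inv hx₀'
    refine mem_iUnion₂.2 ⟨x₀, hx₀, chartAt (Cm n) x₀ x,
      ⟨(chartAt (Cm n) x₀).map_source hx₀', ?_, ?_⟩, ?_⟩
    · rw [h3]; exact h2
    · rw [h3]; exact hx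
    · simp only [Function.comp_apply, h3]
  have hopen : IsOpen (ψ '' (interior (f '' Crit (n := n) f) ∩ ψ.source)) :=
    ψ.isOpen_image_of_subset_source (isOpen_interior.inter ψ.open_source) inter_subset_right
  have h0 : volume (ψ '' (interior (f '' Crit (n := n) f) ∩ ψ.source)) = 0 :=
    measure_mono_null hsub ((measure_biUnion_null_iff t.countable_toSet).2 fun x₀ _ => hnull x₀)
  have hpos := hopen.measure_pos volume ⟨ψ y, y, ⟨hy, hys⟩, rfl⟩
  exact hpos.ne' h0

/-- **A fibration between manifolds of the same dimension is a modification.** -/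
theorem isModif [T2Space X] [CompactSpace X] [ConnectedSpace X] [T2Space Y]
    (hf : ContMDiff 𝓘(ℂ, Cm n) 𝓘(ℂ, Cm n) ω f) (hc : ∀ y, IsConnected (f ⁻¹' {y})) :
    TZ.S.IsModif (Cm n) f := by
  have hcl : IsClosed (Crit (n := n) f) := isClosed_crit hf
  have hpre : f ⁻¹' (f '' Crit (n := n) f)ᶜ = (Crit (n := n) f)ᶜ := by
    ext x
    constructor
    · intro h h'
      exact h ⟨x, h', rfl⟩
    · rintro h ⟨x', hx', he⟩
      have h1 := fibre_eq hf hc h he
      rw [h1] at hx'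
      exact h hx'
  have hne : ((Crit (n := n) f)ᶜ).Nonempty := by
    by_contra h
    rw [not_nonempty_iff_eq_empty, compl_empty_iff] at h
    have h1 := interior_crit (n := n) hf
    have h2 : f '' Crit (n := n) f = univ := by
      rw [h]
      refine eq_univ_of_forall fun y => ?_
      obtain ⟨x, hx⟩ := (hc y).nonempty
      exact ⟨x, mem_univ x, hx⟩
    rw [h2, interior_univ] at h1
    obtain ⟨x⟩ : Nonempty X := inferInstance
    have h3 : f x ∈ (∅ : Set Y) := by rw [← h1]; exact mem_univ _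
    exact h3
  refine ⟨⟨inferInstance, inferInstance, inferInstance, inferInstance⟩, hf,
    hf.continuous.isProperMap, (f '' Crit (n := n) f)ᶜ,
    (hcl.isCompact.image hf.continuous).isClosed.isOpen_compl,
    interior_eq_empty_iff_dense_compl.1 (interior_crit hf), ?_, ?_⟩
  · rw [hpre]
    exact dense_of_local (E := Cm n) hne (exists_jac hf)
  · intro y hy
    obtain ⟨x, hx⟩ := (hc y).nonempty
    have hx' : f x = y := hx
    have hxc : x ∉ Crit (n := n) f := fun h => hy ⟨x, h, hx'⟩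
    refine ⟨x, hx', fun x' h => fibre_eq hf hc hxc ?_⟩
    rw [hx']
    exact h

end

end Vale.Agent.P281.H603.Surf
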